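import Vale.Agent.P352Z.P352X.Spec

open Vale.Agent.P352G

/-!
# P352X: the dependency graph of the rows
-/

set_option linter.all false

namespace Vale.Agent.P352X

open Vale.Agent.P352 Vale.Agent.P352.GF Vale.Agent.P352.BW

variable {D : Type*} [NormedAddCommGroup D] [InnerProductSpace ℂ D] [GrD D]

/-- row CTX: the context exists -/
def CTXZ (D : Type*) [NormedAddCommGroup D] [InnerProductSpace ℂ D] [GrD D] : Prop :=
  ∀ (Q : Theory D) (T : Ix → Ix → Fld D) (A : (V → V) → D → D)
    (N : Set V → VonNeumannAlgebra (UniformSpace.Completion D)) wp wm t (tp : Prop),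
    Q.IsStress T → ND.PCh Q T A → TfGenZ Q → LNmZ Q A N → UVac Q → (tp → TP Q T wp wm t) →
    ∃ c : CtxZ D, c.Q = Q ∧ c.T = T ∧ c.N = N ∧ c.A = A ∧ c.tp = tp

end Vale.Agent.P352X
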