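import Vale.Agent.P352X.Defs
import Vale.Agent.P352Z.P352.BW.U

open Vale.Agent.P352G

/-!
# P352X: vocabulary and the context bundle (see notes/P352/blueprint.md, section 0)
-/

set_option linter.all false

open MeasureTheory Filter Topology
open scoped SchwartzMap ComplexConjugate ENNReal ContDiff

namespace Vale.Agent.P352X

open Vale.Agent.P352 Vale.Agent.P352.GF Vale.Agent.P352.BW Vale.Agent.P352.H246
open Vale.Agent.P352.H496 Vale.Agent.P352.H755 Vale.Agent.P352.H15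
open Vale.Agent.P132 (ModData jconj)
open UniformSpace (Completion)
open Complex (I)

noncomputable section

/-! ## coordinates -/

/-! ## functions -/

/-! ## Hilbert space notions -/

section hilbert

variable {H : Type*} [NormedAddCommGroup H] [InnerProductSpace ℂ H] [CompleteSpace H]

end hilbert

variable {D : Type*} [NormedAddCommGroup D] [InnerProductSpace ℂ D] [GrD D]

/-- **The context**: the hypotheses of the theorem and the objects constructed from them. -/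
structure CtxZ (D : Type*) [NormedAddCommGroup D] [InnerProductSpace ℂ D] [GrD D] where
  Q : Theory D
  T : Ix → Ix → Fld D
  A : (V → V) → D → D
  N : Set V → VonNeumannAlgebra (Completion D)
  S : V → ℝ → Completion D →L[ℂ] Completion D
  l : Fn → Completion D
  E : ModData (N (Wdg va vb 0)) (om Q)
  wp : I2 → I2 → S2 →L[ℂ] Completion D
  wm : I2 → I2 → S2 →L[ℂ] Completion D
  t : I2 → I2 → I2 → S3 →L[ℂ] ℂ
  bt : SN.BC (fun p y : V => mdot p y) (fun y z => Ut Q y z)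
  a3 : SN.BC pr3 (fun (y : P3) z => Ut Q (y.1 • va) (Ga Q y.2 z))
  hT : Q.IsStress T
  hP : ND.PCh Q T A
  hG : TfGenZ Q
  hN : LNmZ Q A N
  hU : UVac Q
  hS : Grp1 Q N S
  pos : ∀ a (z w : Completion D), IsNull a → Gn (S a) z w → 0 ≤ (inner ℂ z w).re
  hl : IsPot Q T l
  wl : ∀ L a f X X', IsLor L → In (Wed L a 1) f → Al Q (Wed L a (-1)) X X' →
    inner ℂ ((X' Q.vac : D) : Completion D) (l f) =
      inner ℂ (l (bar f)) ((X Q.vac : D) : Completion D)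
  bw : ∀ t z, E.U t z = Bo Q (-(2 * Real.pi * t)) z
  gl : ∀ f, IsTest f → Gm D (l f) = l f
  gw : ∀ I J F, Gm D (wp I J F) = wp I J F ∧ Gm D (wm I J F) = wm I J F
  tp : Prop
  hTP0 : tp → TP Q T wp wm t

namespace CtxZ

variable (c : CtxZ D)

theorem hTP [h : Fact c.tp] : TP c.Q c.T c.wp c.wm c.t := c.hTP0 h.out

/-- the graded context of block EG -/
abbrev cg : EG.Cg D := c.hN.cg

abbrev Om : Completion D := om c.Q
abbrev J : Completion D ≃ₗᵢ⋆[ℂ] Completion D := c.E.J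
/-- `exp (i t K)` -/
abbrev SK : ℝ → Completion D →L[ℂ] Completion D := c.S va
/-- `exp (i t K_y)` -/
def Ky (y : V) (t : ℝ) : Completion D →L[ℂ] Completion D := Ut c.Q y * c.S va t * Ut c.Q (-y)
/-- `exp (i t M^2 / P)` -/
def S0 (t : ℝ) : Completion D →L[ℂ] Completion D :=
  c.a3.Phi fun k => Complex.exp (I * (t * (d2 k.2 k.2 / k.1) : ℝ))
/-- `exp (i t Kt)` -/
def Sk (t : ℝ) : Completion D →L[ℂ] Completion D := c.S va t * c.S0 (-t)
/-- spectral measures of the translations -/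
abbrev nu (v : Completion D) : Measure V := c.bt.nu v
/-- the form of `P_b` -/
def qb (v : Completion D) : ℝ≥0∞ := ∫⁻ p, ENNReal.ofReal (al p) ∂c.nu v
/-- `T^{mn}(F_mn)` -/
def Tf (F : Ix → Ix → Fn) (v : D) : D := ∑ m, ∑ n, c.T m n (F m n) v
def Tv (F : Ix → Ix → Fn) : Completion D := (c.Tf F c.Q.vac : D)
/-- the trace -/
def Thf (f : Fn) (v : D) : D := GF.tr c.T f v
def Th (f : Fn) : Completion D := (c.Thf f c.Q.vac : D)
/-- `X` is smooth in norm under the boosts, the translations along `b` and the null rotations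
that fix `b` -/
def Good (X : Completion D →L[ℂ] Completion D) : Prop :=
  ContDiff ℝ ∞ fun q : ℝ × ℝ × ℝ => Bo c.Q q.1 * Pb c.Q q.2.1 * Gb c.Q q.2.2 * X *
    Gb c.Q (-q.2.2) * Pb c.Q (-q.2.1) * Bo c.Q (-q.1)
/-- the group generated by `B`, `P_b`, `M^b` -/
def gq (q : ℝ × ℝ × ℝ) : Completion D →L[ℂ] Completion D :=
  Bo c.Q q.1 * Pb c.Q q.2.1 * Gb c.Q q.2.2
/-- the defect of locality of the potential -/
def bb (Z : Completion D →L[ℂ] Completion D) (f : Fn) : ℂ :=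
  inner ℂ (star Z c.Om) (c.l f) - inner ℂ (c.l (bar f)) (Z c.Om)
/-- the form `ω(T(h,k)(g))` between `Y* Ω` and `X Ω`, with `w = Y X Ω`, `w' = X* Y* Ω` -/
def om2 (w w' : Completion D) (χ : ℝ → ℝ) (F : Ix → Ix → Fn) : ℂ :=
  inner ℂ (c.Tv fun m n z => (χ (al z) : ℝ) * bar (F m n) z) w +
    inner ℂ w' (c.Tv fun m n z => (1 - χ (al z) : ℝ) * F m n z)
/-- `⟨T(Θ T_aa Θ)⟩` -/
def t0 (F : S3) : ℂ := ∑ m, ∑ k, ∑ l, ∑ n,
  ((eta m * (eta k * va k) * (eta l * va l) * eta n : ℝ) : ℂ) * c.t (m, m) (k, l) (n, n) F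
/-- the plane form of the weight `(x - x_A).(x - x_B)` between `fA` (above) and `fB` (below) -/
def PF (fA fB : Fn) : ℂ :=
  inner ℂ (c.Th (bar fA)) (gen c.SK (c.Th fB)) -
    ∑ i, (inner ℂ (c.Th (bar fun z => (tx z i : ℝ) * fA z)) (gen (Mi c.Q i) (c.Th fB)) +
      inner ℂ (c.Th (bar fA)) (gen (Mi c.Q i) (c.Th fun z => (tx z i : ℝ) * fB z))) +
    ∑ i, inner ℂ (c.Th (bar fun z => (tx z i : ℝ) * fA z))
      (gen (Pa c.Q) (c.Th fun z => (tx z i : ℝ) * fB z))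

/-- the four faces -/
def Faces (ρ1 κ3 : P3 → ℝ) (θ : ℝ → ℝ) (ε δ : ℝ) : ℂ := ∑ j : Fin 3, (![1, -2, 1] j : ℂ) *
  (c.PF (pr (ap (2 - j) ρ1) (dil ε (chp θ))) (pr (ap j κ3) (blw (dil ε θ) θ δ)) +
    c.PF (pr (ap j κ3) (abv (dil ε θ) θ δ)) (pr (ap (2 - j) ρ1) (dil ε (chm θ))) +
    c.PF (pr (ap (2 - j) ρ1) (abv (dil ε θ) θ δ)) (pr (ap j κ3) (dil ε (chm θ))) +
    c.PF (pr (ap j κ3) (dil ε (chp θ))) (pr (ap (2 - j) ρ1) (blw (dil ε θ) θ δ)))

/-- distributions on test functions with compact support, with values in the Hilbert space,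
covariant under the translations, the null rotations `G_w` and the scalings -/
structure Cov2 (φ : Fn → Completion D) (x y : ℝ) : Prop where
  lin : ∀ (f g : Fn) (a : ℂ), In Set.univ f → In Set.univ g →
    φ (fun z => f z + a * g z) = φ f + a • φ g
  bd : ∀ K : Set V, IsCompact K → ∃ (m : ℕ) (C : ℝ), ∀ g : Sch, tsupport g ⊆ K →
    ‖φ (ev g)‖ ≤ C * sn m g
  tra : ∀ a f, In Set.univ f → Ut c.Q a (φ fun z => f (z + a)) = φ f
  rot : ∀ w f, In Set.univ f → Ga c.Q w (φ fun z => f (gap w z)) = φ f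
  sca : ∀ r s f, 0 < r → 0 < s → In Set.univ f →
    Usc c.Q r s (φ fun z => f (scp r s z)) = ((r ^ x * s ^ y : ℝ) : ℂ) • φ f
  perp : ∀ f, In Set.univ f → inner ℂ c.Om (φ f) = 0

end CtxZ

/-- the potential in momentum space -/
structure EllZ (c : CtxZ D) (ell : (V → ℂ) → Completion D) (c0 : ℝ) : Prop where
  nonneg : 0 ≤ c0
  lin : ∀ ψ ψ' (a : ℂ), MemLp ψ 2 (volume.restrict Fc) → MemLp ψ' 2 (volume.restrict Fc) →
    ell (fun p => ψ p + a * ψ' p) = ell ψ + a • ell ψ'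
  inn : ∀ ψ ψ', MemLp ψ 2 (volume.restrict Fc) → MemLp ψ' 2 (volume.restrict Fc) →
    inner ℂ (ell ψ) (ell ψ') = c0 * ∫ p in Fc, conj (ψ p) * ψ' p
  pot : ∀ f, IsTest f → ell (ft f) = c.l f
  th : ∀ f, IsTest f → c.Th f = (-3 : ℂ) • ell fun p => (mu p : ℝ) * ft f p
  phi : ∀ g ψ, SN.Bd g → MemLp ψ 2 (volume.restrict Fc) →
    c.bt.Phi g (ell ψ) = ell fun p => g p * ψ p
  cov : ∀ s L a ψ ψ', 0 < s → IsLor L → MemLp ψ 2 (volume.restrict Fc) →
    (∀ p, ψ' (sim 1 L 0 p) =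
      (s ^ 2 : ℝ) * Complex.exp (I * mdot (sim 1 L 0 p) a) * ψ (s • p)) →
    Ug c.Q s L a (ell ψ) = ell ψ'
  s0 : ∀ (t : ℝ) (g g' : 𝓢(P3, ℂ)) (φ : ℝ → ℝ → ℂ), Measurable (Function.uncurry φ) →
    (∀ y : P3, g' y = g (y.1 - t * d2 y.2 y.2, y.2)) →
    MemLp (fun p => ft3 g (pm p) * φ (be p) (mu p)) 2 (volume.restrict Fc) →
    MemLp (fun p => ft3 g' (pm p) * φ (be p) (mu p)) 2 (volume.restrict Fc) ∧
    c.S0 t (ell fun p => ft3 g (pm p) * φ (be p) (mu p)) =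
      ell fun p => ft3 g' (pm p) * φ (be p) (mu p)

/-- the form of `Kt` on the vectors `Tht` -/
structure SchurZ (c : CtxZ D) (ell : (V → ℂ) → Completion D) (cc : (ℝ → ℝ) → (ℝ → ℝ) → ℂ)
    (dd : (ℝ → ℝ) → ℝ) : Prop where
  dom : ∀ γ φ, MemLp γ 2 m3 → D0 φ → Dm c.Sk (Tht ell γ φ)
  form : ∀ γ' φ' γ φ, MemLp γ' 2 m3 → D0 φ' → MemLp γ 2 m3 → D0 φ →
    inner ℂ (Tht ell γ' φ') (gen c.Sk (Tht ell γ φ)) = cc φ' φ * ∫ k, conj (γ' k) * γ k ∂m3
  nrm : ∀ γ φ, MemLp γ 2 m3 → D0 φ →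
    ‖gen c.Sk (Tht ell γ φ)‖ ^ 2 = dd φ * ∫ k, ‖γ k‖ ^ 2 ∂m3
  scc : ∀ φ' φ s, D0 φ' → D0 φ → 0 < s → cc (dil s φ') (dil s φ) = cc φ' φ
  sdd : ∀ φ s, D0 φ → 0 < s → dd (dil s φ) = s * dd φ
  cont : ∀ φ' φ, D0 φ' → D0 φ → ContinuousOn (fun s => cc (dil s φ') φ) (Set.Ioi 0)
  int : ∀ φ' φ, D0 φ' → D0 φ →
    IntegrableOn (fun s : ℝ => cc (dil s φ') φ / s) (Set.Ioi 0)

end

end Vale.Agent.P352X
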