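import Vale.Agent.P352X.Spec
import Vale.Agent.P352Z.P352X.Defs

open Vale.Agent.P352G

/-!
# P352X: the rows (see notes/P352/blueprint.md)
-/

set_option linter.all false

open MeasureTheory Filter Topology
open scoped SchwartzMap ComplexConjugate ENNReal ContDiff

namespace Vale.Agent.P352X

open Vale.Agent.P352 Vale.Agent.P352.GF Vale.Agent.P352.BW Vale.Agent.P352.H246
open Vale.Agent.P352.H496 Vale.Agent.P352.H755 Vale.Agent.P352.H15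
open Vale.Agent.P132 (ModData jconj)
open UniformSpace (Completion)
open Complex (I)

noncomputable section

/-! ## level 0: no field theory -/

variable {D : Type*} [NormedAddCommGroup D] [InnerProductSpace ℂ D] [GrD D] (c : CtxZ D)

/-- row GRP: the group relations in null coordinates, and the action on the fields -/
structure GRPZ : Prop where
  na : IsNull va
  nb : IsNull vb
  nab : mdot va vb = 1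
  uni : ∀ s L a, Ug c.Q s L a ∈ unitary (Completion D →L[ℂ] Completion D)
  vac : ∀ s L a, Ug c.Q s L a c.Om = c.Om
  mul : ∀ s L a s' L' a', 0 < s → 0 < s' → IsLor L → IsLor L' → OkL L L' →
    Ug c.Q s L a * Ug c.Q s' L' a' = Ug c.Q (s * s') (fun m => sim 1 L 0 (L' m)) (sim s L a a')
  mulG : ∀ s L a s' L' a', 0 < s → 0 < s' → IsLor L → IsLor L' → ∃ e : Bool,
    Ug c.Q s L a * Ug c.Q s' L' a' =
      cond e (Gm D) 1 * Ug c.Q (s * s') (fun m => sim 1 L 0 (L' m)) (sim s L a a')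
  mulE : ∀ s L a s' L' a' z, 0 < s → 0 < s' → IsLor L → IsLor L' → Gm D z = z →
    Ug c.Q s L a (Ug c.Q s' L' a' z) =
      Ug c.Q (s * s') (fun m => sim 1 L 0 (L' m)) (sim s L a a') z
  g2 : Gm D * Gm D = 1
  gs : star (Gm D) = Gm D
  gv : Gm D c.Om = c.Om
  gU : ∀ s L a, Gm D * Ug c.Q s L a = Ug c.Q s L a * Gm D
  gS : ∀ a t, IsNull a → Gm D * c.S a t = c.S a t * Gm D
  gN : ∀ O, ∀ X ∈ c.N O, Gm D * X * Gm D ∈ c.N O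
  gT : ∀ m n f (v : D), IsTest f → c.T m n f (Gd v) = Gd (c.T m n f v)
  gext : ∀ v : D, Gm D v = (Gd v : D)
  gTv : ∀ F, (∀ m n, IsTest (F m n)) → Gm D (c.Tv F) = c.Tv F
  gTh : ∀ f, IsTest f → Gm D (c.Th f) = c.Th f
  gbt : ∀ F z, SN.Bd F → Gm D (c.bt.Phi F z) = c.bt.Phi F (Gm D z)
  ga3 : ∀ F z, SN.Bd F → Gm D (c.a3.Phi F z) = c.a3.Phi F (Gm D z)
  coe : ∀ s L a (v : D), 0 < s → IsLor L → Ug c.Q s L a v = (c.Q.U s L a v : D)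
  cont : ∀ (ι : Type) (l : Filter ι) (s : ι → ℝ) (L : ι → Ix → V) (a : ι → V) s0 L0 a0 v,
    (Gm D v = v ∨ L0 = GF.one ∨ ∃ b, IsNull b ∧ AN b L0 ∧ ∀ i, AN b (L i)) →
    (∀ i, 0 < s i ∧ IsLor (L i)) → 0 < s0 → IsLor L0 → Tendsto s l (𝓝 s0) → Tendsto L l (𝓝 L0) →
    Tendsto a l (𝓝 a0) → Tendsto (fun i => Ug c.Q (s i) (L i) (a i) v) l (𝓝 (Ug c.Q s0 L0 a0 v))
  alg : ∀ s L a O, 0 < s → IsLor L → ∀ X, X ∈ c.N O ↔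
    Ug c.Q s L a * X * star (Ug c.Q s L a) ∈ c.N (sim s L a '' O)
  lsc : ∀ r s, 0 < r → 0 < s →
    IsLor (bst va vb (Real.sqrt (r / s) - 1) (Real.sqrt (s / r) - 1)) ∧ ∀ z, sim (Real.sqrt (r * s))
      (bst va vb (Real.sqrt (r / s) - 1) (Real.sqrt (s / r) - 1)) 0 z = scp r s z
  lga : ∀ w : R2, IsLor (H746.nrt va (tv ((1 / 2 : ℝ) • w))) ∧
    ∀ z, sim 1 (H746.nrt va (tv ((1 / 2 : ℝ) • w))) 0 z = gap w z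
  lgb : ∀ s : ℝ, IsLor (H746.nrt vb (tv ((s / 2) • e2 0))) ∧
    ∀ z, sim 1 (H746.nrt vb (tv ((s / 2) • e2 0))) 0 z = gbp s z
  ut0 : Ut c.Q 0 = 1
  ut : ∀ x y, Ut c.Q (x + y) = Ut c.Q x * Ut c.Q y
  sc1 : Usc c.Q 1 1 = 1
  sc : ∀ r s r' s', 0 < r → 0 < s → 0 < r' → 0 < s' →
    Usc c.Q (r * r') (s * s') = Usc c.Q r s * Usc c.Q r' s'
  ga0 : Ga c.Q 0 = 1
  ga : ∀ v w, Ga c.Q (v + w) = Ga c.Q v * Ga c.Q w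
  gb0 : Gb c.Q 0 = 1
  gb : ∀ s t, Gb c.Q (s + t) = Gb c.Q s * Gb c.Q t
  sc_ut : ∀ r s y, 0 < r → 0 < s → Usc c.Q r s * Ut c.Q y = Ut c.Q (scp r s y) * Usc c.Q r s
  ga_ut : ∀ w y, Ga c.Q w * Ut c.Q y = Ut c.Q (gap w y) * Ga c.Q w
  gb_ut : ∀ s y, Gb c.Q s * Ut c.Q y = Ut c.Q (gbp s y) * Gb c.Q s
  sc_ga : ∀ r s w, 0 < r → 0 < s →
    Usc c.Q r s * Ga c.Q w = Ga c.Q (Real.sqrt (r / s) • w) * Usc c.Q r s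
  sc_gb : ∀ r s t, 0 < r → 0 < s →
    Usc c.Q r s * Gb c.Q t = Gb c.Q (Real.sqrt (s / r) * t) * Usc c.Q r s
  sc_S : ∀ r s t, 0 < r → 0 < s → Usc c.Q r s * c.SK t = c.SK (t / s) * Usc c.Q r s
  ga_S : ∀ w t, Ga c.Q w * c.SK t = c.SK t * Ga c.Q w
  pa_S : ∀ s t, Pa c.Q s * c.SK t = c.SK t * Pa c.Q s
  S_ut : ∀ t (y : R2), c.SK t * Ut c.Q (tv y) =
    Ut c.Q (tv y + (t * d2 y y) • va) * Ga c.Q ((2 * t) • y) * c.SK t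
  S_uni : ∀ a t, IsNull a → c.S a t ∈ unitary (Completion D →L[ℂ] Completion D)
  ten : ∀ s L a h k f v, 0 < s → IsLor L → IsTest f →
    c.Q.U s L a (c.Tf (hk h k fun x => f (sim s L a x)) v) =
      c.Tf (hk (sim 1 L 0 h) (sim 1 L 0 k) f) (c.Q.U s L a v)
  th : ∀ s L a f v, 0 < s → IsLor L → IsTest f →
    c.Q.U s L a (c.Thf (fun x => f (sim s L a x)) v) = c.Thf f (c.Q.U s L a v)
  pot : ∀ s L a f, 0 < s → IsLor L → IsTest f →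
    Ug c.Q s L a (c.l fun x => f (sim s L a x)) = ((s ^ 2)⁻¹ : ℝ) • c.l f
  perp : ∀ m n f, IsTest f → inner ℂ c.Q.vac (c.T m n f c.Q.vac) = 0
  perpl : ∀ f, IsTest f → inner ℂ c.Om (c.l f) = 0
  cons : ∀ h f v, IsTest f → c.Tf (hk va h (dv vb f)) v + c.Tf (hk vb h (dv va f)) v -
    ∑ i, c.Tf (hk (ex i) h (dv (ex i) f)) v = 0
  trace : ∀ f v, IsTest f →
    c.Thf f v = (2 : ℂ) • c.Tf (hk va vb f) v - ∑ i, c.Tf (hk (ex i) (ex i) f) v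
  afft : ∀ O F, (∀ m n, In O (F m n)) → T.Afs (c.N O) (c.Tf F) (c.Tf fun m n => bar (F m n))
  affh : ∀ O f, In O f → T.Afs (c.N O) (c.Thf f) (c.Thf (bar f))
  affa : ∀ O X X', Al c.Q O X X' → T.Afs (c.N O) X X'
  rs : ∀ O : Set V, IsOpen O → O.Nonempty → Dense {z | ∃ X ∈ c.N O, X c.Om = z}
  md : ∀ r, 0 ≤ r → ∃ E : ModData (c.N (Rc r 0)) c.Om, ∀ t, E.U t =
    c.SK (r * (1 - Real.exp (-(2 * Real.pi * t)))) * Bo c.Q (-(2 * Real.pi * t))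
  geo : ∀ r r' X, 0 ≤ r → 0 ≤ r' →
    (X ∈ c.N (Rc r 0) ↔ c.SK (r' - r) * X * c.SK (r - r') ∈ c.N (Rc r' 0))

/-- level 0 -/
structure T0Z : Prop where
  lie : LIE
  ker : KER
  null : NULL
  gff : GFF
  uq : UQ
  sym : SYM
  grp : GRPZ c

/-! ## level 1 -/

/-- row GEN: the generators on the vectors generated by one field -/
structure GENZ : Prop where
  ut : ∀ y h k f, IsTest f →
    Gn (fun t => Ut c.Q (t • y)) (c.Tv (hk h k f)) (I • c.Tv (hk h k (dv y f)))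
  bo : ∀ h k f, IsTest f → Gn (Bo c.Q) (c.Tv (hk h k f)) (I • (c.Tv (hk h k (Bc f)) -
    c.Tv (hk (al h • va - be h • vb) k f) - c.Tv (hk h (al k • va - be k • vb) f)))
  mi : ∀ i h k f, IsTest f → Gn (Mi c.Q i) (c.Tv (hk h k f)) (I • (c.Tv (hk h k (Mc i f)) -
    c.Tv (hk (tx h i • va + be h • ex i) k f) - c.Tv (hk h (tx k i • va + be k • ex i) f)))
  gb : ∀ h k f, IsTest f → Gn (Gb c.Q) (c.Tv (hk h k f)) (I • (c.Tv (hk h k (Mb f)) -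
    c.Tv (hk (tx h 0 • vb + al h • ex 0) k f) - c.Tv (hk h (tx k 0 • vb + al k • ex 0) f)))
  uth : ∀ y f, IsTest f → Gn (fun t => Ut c.Q (t • y)) (c.Th f) (I • c.Th (dv y f))
  both : ∀ f, IsTest f → Gn (Bo c.Q) (c.Th f) (I • c.Th (Bc f))
  mith : ∀ i f, IsTest f → Gn (Mi c.Q i) (c.Th f) (I • c.Th (Mc i f))
  gbth : ∀ f, IsTest f → Gn (Gb c.Q) (c.Th f) (I • c.Th (Mb f))
  utl : ∀ y f, IsTest f → Gn (fun t => Ut c.Q (t • y)) (c.l f) (I • c.l (dv y f))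
  bol : ∀ f, IsTest f → Gn (Bo c.Q) (c.l f) (I • c.l (Bc f))
  mil : ∀ i f, IsTest f → Gn (Mi c.Q i) (c.l f) (I • c.l (Mc i f))
  sm : ∀ v : D, ContDiff ℝ ∞ fun q => c.gq q (v : Completion D)
  bd : ∃ (m : ℕ) (C : ℝ), ∀ h k (f : Sch), ‖c.Tv (hk h k (ev f))‖ ≤ C * ‖h‖ * ‖k‖ * sn m f
  bd2 : ∀ v : D, ∃ (m : ℕ) (C : ℝ), ∀ i j k l (f g : Sch),
    ‖c.T i j (ev f) (c.T k l (ev g) v)‖ ≤ C * sn m f * sn m g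
  ky : ∀ (y : R2) ψ, Dm c.SK ψ → (∀ i, Dm (Mi c.Q i) ψ) → Dm (Pa c.Q) ψ →
    Gn (c.Ky (tv y)) ψ (gen c.SK ψ - ∑ i, ((2 * y i : ℝ) : ℂ) • gen (Mi c.Q i) ψ +
      (d2 y y : ℝ) • gen (Pa c.Q) ψ)

/-- row BAS: spectral measures, weak nullity, thin averages -/
structure BASZ : Prop where
  cone : ∀ v, ∀ᵐ p ∂c.nu v, 0 ≤ p o ∧ 0 ≤ mu p
  ker : ∀ v, inner ℂ c.Om v = 0 → c.nu v {p | be p = 0} = 0 ∧ c.nu v {p | al p = 0} = 0 ∧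
    c.nu v {p | tx p = 0} = 0 ∧ c.a3.nu v {k | k.1 ≤ 0} = 0
  wn : ∀ (ι : Type) (l : Filter ι) (r s : ι → ℝ) (y : ι → V) (η : ι → Completion D) η0 w,
    (∀ i, 0 < r i ∧ 0 < s i) →
    (Tendsto r l atTop ∨ Tendsto r l (𝓝 0) ∨ Tendsto s l atTop ∨ Tendsto s l (𝓝 0)) →
    Tendsto η l (𝓝 η0) → inner ℂ c.Om η0 = 0 →
    Tendsto (fun i => inner ℂ (Ut c.Q (y i) (Usc c.Q (r i) (s i) (η i))) w) l (𝓝 0)
  thin : ∀ (u : R2 → ℂ) ξ, Integrable u → inner ℂ c.Om ξ = 0 →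
    Tendsto (fun s : ℝ => ∫ y, u y • Ut c.Q (tv (s⁻¹ • y)) ξ) (𝓝[>] 0) (𝓝 0)
  tail : ∃ C κ : ℝ, 0 < κ ∧ ∀ η w (Λ C0 L : ℝ), 1 ≤ L → 0 ≤ C0 → Dm (Pa c.Q) η →
    (∀ s, ‖Gb c.Q s w - w‖ ≤ Λ * |s|) →
    (∀ s ∈ Set.Ioc (0 : ℝ) 1, c.nu η {p | al p < s} ≤ ENNReal.ofReal (C0 ^ 2 * s)) →
    ‖inner ℂ (Usc c.Q L 1 η) w‖ ≤
      C * L ^ (-κ) * (‖w‖ + Λ) * (C0 + ‖η‖ + ‖gen (Pa c.Q) η‖)

/-- row JC: the modular conjugation of the wedge, duality -/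
structure JCZ : Prop where
  lor : ∀ L, IsLor L → IsLor (jL L) ∧ ∀ s a z, sim s (jL L) (jr a) (jr z) = jr (sim s L a z)
  gam : ∀ z, c.J (Gm D z) = Gm D (c.J z)
  ug : ∀ s L a z, 0 < s → IsLor L → (Gm D z = z ∨ L = GF.one ∨ AN va L ∨ AN vb L) →
    c.J (Ug c.Q s L a z) = Ug c.Q s (jL L) (jr a) (c.J z)
  S : ∀ t z, c.J (c.SK t z) = c.SK (-t) (c.J z)
  S0 : ∀ t z, c.J (c.S0 t z) = c.S0 (-t) (c.J z)
  one : ∀ m n f, IsTest f → c.J (c.T m n f c.Q.vac : D) =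
    ((sj m * sj n : ℝ) : ℂ) • ((c.T m n (bar fun z => f (jr z)) c.Q.vac : D) : Completion D)
  two : ∀ m n k l f g, IsTest f → IsTest g → c.J (c.T m n f (c.T k l g c.Q.vac) : D) =
    ((sj m * sj n * (sj k * sj l) : ℝ) : ℂ) • ((c.T m n (bar fun z => f (jr z))
      (c.T k l (bar fun z => g (jr z)) c.Q.vac) : D) : Completion D)
  dual : ∀ a b y, IsNull a → IsNull b → 0 < mdot a b → ∀ X,
    X ∈ (c.N (Wdg a b y)).commutant ↔ tw X ∈ c.N (Wdg b a y)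
  dualE : ∀ a b y, IsNull a → IsNull b → 0 < mdot a b → ∀ X, Ev X →
    (X ∈ (c.N (Wdg a b y)).commutant ↔ X ∈ c.N (Wdg b a y))
  alg : ∀ a b y, IsNull a → IsNull b → 0 < mdot a b → ∀ X ∈ c.N (Wdg a b y),
    tw (jconj c.J X) ∈ c.N (jr '' Wdg a b y)
  algE : ∀ a b y, IsNull a → IsNull b → 0 < mdot a b → ∀ X ∈ c.N (Wdg a b y), Ev X →
    jconj c.J X ∈ c.N (jr '' Wdg a b y) ∧ Ev (jconj c.J X)
  core : ∀ a b y ψ ψ', IsNull a → IsNull b → 0 < mdot a b → Gm D ψ = ψ → Gm D ψ' = ψ' →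
    (∀ X X', Al c.Q (Wdg b a y) X X' → inner ℂ ((X' c.Q.vac : D) : Completion D) ψ =
      inner ℂ ψ' ((X c.Q.vac : D) : Completion D)) → Pr (c.N (Wdg a b y)) c.Om ψ ψ'
  coreO : ∀ a b y ψ ψ', IsNull a → IsNull b → 0 < mdot a b → Gm D ψ = -ψ → Gm D ψ' = -ψ' →
    (∀ X X', Al c.Q (Wdg b a y) X X' → inner ℂ ((X' c.Q.vac : D) : Completion D) ψ =
      -inner ℂ ψ' ((X c.Q.vac : D) : Completion D)) → Pr (c.N (Wdg a b y)) c.Om ψ ψ'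

/-- row CH: charges on general surfaces -/
def CHZ : Prop := ∀ (K : Set V) χ Ξ X (B : Fld D) f v w, IsCompact K → Chg K χ Ξ → IsSim 0 X →
  c.Q.fld B → IsTest f → tsupport f ⊆ K →
  inner ℂ w (c.Tf (dens χ Ξ X) (B f v) - B f (c.Tf (dens χ Ξ X) v)) =
    inner ℂ w (c.A X (B f v) - B f (c.A X v))

/-- row STRUCT: the contact terms of the divergence -/
def STRUCTZ : Prop := ∀ e w, TP2 c.Q c.T e w → ∃ (k0 : ℕ)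
  (O : (k : ℕ) → (Fin (k + 3) → Ix) → Sch →L[ℂ] Completion D),
  (∀ k, CovM c.Q (k + 3) (5 - k) (O k)) ∧
  (∀ k n J (γ : Fin k → Ix) (σ : Equiv.Perm (Fin k)), O k (ix3 n J (γ ∘ σ)) = O k (ix3 n J γ) ∧
    O k (ix3 n J.swap γ) = O k (ix3 n J γ)) ∧
  ∀ n J (G : S2), HasCompactSupport G → dv1 w n J G = ∑ k ∈ Finset.range (k0 + 1),
    ∑ γ : Fin k → Ix, ((k.factorial : ℂ)⁻¹) • O k (ix3 n J γ) (dg γ G)

/-- row WK: the kernel theorem for the product of two components of `T` -/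
def WKZ : Prop := ∃ W : I2 → I2 → S2 →L[ℂ] Completion D,
  (∀ K M (f g : Sch) (F : S2), (∀ x y, F (x, y) = f x * g y) →
    W K M F = ((c.T K.1 K.2 (ev f) (c.T M.1 M.2 (ev g) c.Q.vac) : D) : Completion D)) ∧
  ∀ s L a K M (F G : S2), 0 < s → IsLor L → (∀ x y, G (x, y) = F (sim s L a x, sim s L a y)) →
    W K M F = ∑ K', ∑ M', (L2 L K' K * L2 L M' M) • Ug c.Q s L a (W K' M' G)

/-- level 1 -/
structure T1Z : Prop extends T0Z c where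
  gen : GENZ c
  bas : BASZ c
  jc : JCZ c
  ch : CHZ c
  struct : STRUCTZ c

/-! ## level 2 -/

/-- row ZC: covariant distributions of low dimension -/
structure ZCZ : Prop where
  zer : ∀ φ x y, c.Cov2 φ x y → y < -3 / 2 → ∀ f, In Set.univ f → φ f = 0
  cls : ∀ φ φ', c.Cov2 φ (-1) (-1) → c.Cov2 φ' (-1) (-1) → ∃ κ : ℂ, ∀ f f', In Set.univ f →
    In Set.univ f' → inner ℂ (φ f) (φ' f') = κ * ∫ p in Fc, conj (ft f p) * ft f' p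

/-- row TWO: the two point function of `T` -/
def TWOZ : Prop := ∃ C : ℝ, 0 ≤ C ∧ ∀ h k f, IsTest f → c.nu (c.Tv (hk h k f)) ≤
  (volume.restrict Fc).withDensity fun p => ENNReal.ofReal (C * nn p h * nn p k * ‖ft f p‖ ^ 2)

/-- row ELL -/
def ELLZ : Prop := ∃ ell c0, EllZ c ell c0

/-- row KD: the domain of `K` -/
structure KDZ : Prop where
  a : ∀ r, 0 < r → ∃ C : ℝ, ∀ ψ ψ', Pr (c.N (Rc r 0)) c.Om ψ ψ' → Dm (Bo c.Q) ψ →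
    Dm c.SK ψ ∧ ‖gen c.SK ψ‖ ≤ C * (‖ψ‖ + ‖ψ'‖ + ‖gen (Bo c.Q) ψ‖)
  b : ∀ r r' ψ ψ', 0 ≤ r → 0 ≤ r' → Pr (c.N (Rc r 0)) c.Om ψ ψ' →
    Pr (c.N (Rc r' 0)) c.Om (c.SK (r' - r) ψ) (c.SK (r' - r) ψ')
  a2 : ∀ r r' ψ ψ', 0 ≤ r' → r' < r → Pr (c.N (Rc r 0)) c.Om ψ ψ' → Dm (Bo c.Q) ψ →
    Dm (Bo c.Q) ψ' → Pr (c.N (Rc r' 0)) c.Om (I • gen c.SK ψ) (I • gen c.SK ψ') ∧
      (Dm (Bo c.Q) (gen (Bo c.Q) ψ) → Dm c.SK (gen (Bo c.Q) ψ) ∧ Gn (Bo c.Q) (gen c.SK ψ)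
        (gen c.SK (gen (Bo c.Q) ψ) - I • gen c.SK ψ))
  slab : ∀ b1 b2 : ℝ, (b2 < 0 ∨ 0 < b1) → ∃ (m : ℕ) (C : ℝ), ∀ h k (f : Sch),
    tsupport f ⊆ {z | b1 ≤ be z ∧ be z ≤ b2} → Dm c.SK (c.Tv (hk h k (ev f))) ∧
      Dm c.SK (gen c.SK (c.Tv (hk h k (ev f)))) ∧
      ‖gen c.SK (c.Tv (hk h k (ev f)))‖ ≤ C * ‖h‖ * ‖k‖ * sn m f ∧
      ‖gen c.SK (gen c.SK (c.Tv (hk h k (ev f))))‖ ≤ C * ‖h‖ * ‖k‖ * sn m f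

/-- row GOOD: smooth elements of the local algebras -/
structure GOODZ : Prop where
  dense : ∀ y r, 0 < r → Dense {z | ∃ X ∈ c.N (dc y r), c.Good X ∧ X c.Om = z}
  par : ∀ X, c.Good X → c.Good (evp' X) ∧ c.Good (odp X)
  denseE : ∀ y r, 0 < r → ∀ z, Gm D z = z →
    z ∈ closure {z | ∃ X ∈ c.N (dc y r), Ev X ∧ c.Good X ∧ X c.Om = z}
  denseO : ∀ y r, 0 < r → ∀ z, Gm D z = -z →
    z ∈ closure {z | ∃ X ∈ c.N (dc y r), Od X ∧ c.Good X ∧ X c.Om = z}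
  fld : ∀ y r (f : Sch) (m : ℕ) (η : ℝ), In (dc y r) (ev f) → 0 < η → ∃ (f' : Sch)
    (X : ℕ → Completion D →L[ℂ] Completion D), In (dc y r) (ev f') ∧ sn m (f' - f) < η ∧
    (∀ n, X n ∈ c.N (dc y r) ∧ c.Good (X n)) ∧ (∀ n, Ev (X n)) ∧ ∀ (v : D) (k : ℕ),
      TendstoLocallyUniformly (fun n => iteratedFDeriv ℝ k fun q => c.gq q (X n v))
        (iteratedFDeriv ℝ k fun q => c.gq q (c.Thf (ev f') v : D)) atTop ∧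
      TendstoLocallyUniformly (fun n => iteratedFDeriv ℝ k fun q => c.gq q (star (X n) v))
        (iteratedFDeriv ℝ k fun q => c.gq q (c.Thf (bar (ev f')) v : D)) atTop

/-- row F2: the Ward identity for bounded operators -/
def F2Z : Prop := ∀ y r a b y1 χ Ξ (L : ℝ → Ix → V) (x : ℝ → V) (ξ : V → V) X k, 0 < r →
  IsNull a → IsNull b → 0 < mdot a b → X ∈ c.N (dc y r) → Ev X → Chg (closure (dc y r)) χ Ξ →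
  dc y r ⊆ Wdg a b y1 → tsupport χ ⊆ Wdg a b y1 → L 0 = GF.one → x 0 = 0 → (∀ e, IsLor (L e)) →
  (∀ n z, HasDerivAt (fun e => sim 1 (L e) (x e) z n) (ξ z n) 0) →
  Gn (fun e => Ug c.Q 1 (L e) (x e)) (X c.Om) k →
  Pr (c.N (Wdg a b y1)) c.Om (k + X (c.Tv (dens χ Ξ ξ))) (star X (c.Tv (dens χ Ξ ξ)))

/-- row PW: Ward identities on the null plane, for fields -/
def PWZ : Prop := ∀ (u0 : ℝ) f1 f3 κ ρ, In {z | u0 < be z} f1 → In {z | be z < -u0} f3 → Cut κ →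
  Tst ρ → tsupport ρ ⊆ Set.Ioo (-u0) u0 →
  Tendsto (fun L => inner ℂ (c.Th (bar f1))
      ((c.Tf (hk va va (pr (kL κ L) ρ)) (c.Thf f3 c.Q.vac) : D) : Completion D)) atTop
    (𝓝 ((∫ t, ρ t : ℝ) * inner ℂ (c.Th (bar f1)) (gen (Pa c.Q) (c.Th f3)))) ∧
  ∀ i, Tendsto (fun L => inner ℂ (c.Th (bar f1))
      ((c.Tf (hk va va (pr (fun y => y.2 i * kL κ L y) ρ)) (c.Thf f3 c.Q.vac) : D) : Completion D))
    atTop (𝓝 ((∫ t, ρ t : ℝ) * inner ℂ (c.Th (bar f1)) (gen (Mi c.Q i) (c.Th f3)) -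
      (∫ t, t * ρ t : ℝ) *
        inner ℂ (c.Th (bar f1)) (gen (fun t => Ut c.Q (t • ex i)) (c.Th f3))))

/-- row MIR: the mirror image of the time ordered product -/
def MIRZ : Prop := c.tp → ∃ w, TP2 c.Q c.T false w ∧ ∀ K M (F G : S2),
  (∀ x y, G (x, y) = conj (F (jr x, jr y))) →
    w K M G = ((sj K.1 * sj K.2 * (sj M.1 * sj M.2) : ℝ) : ℂ) • c.J (c.wp K M F)

/-- row KT: the splitting `K = Kt + K0` -/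
structure KTZ : Prop where
  add0 : ∀ s t, c.S0 (s + t) = c.S0 s * c.S0 t
  add : ∀ s t, c.Sk (s + t) = c.Sk s * c.Sk t
  zero : c.S0 0 = 1 ∧ c.Sk 0 = 1
  uni : ∀ t, c.S0 t ∈ unitary (Completion D →L[ℂ] Completion D) ∧
    c.Sk t ∈ unitary (Completion D →L[ℂ] Completion D)
  cont : ∀ z, Continuous (fun t => c.S0 t z) ∧ Continuous fun t => c.Sk t z
  comm : ∀ s t, c.S0 s * c.Sk t = c.Sk t * c.S0 s ∧ c.SK t = c.Sk t * c.S0 t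
  vac : ∀ t, c.S0 t c.Om = c.Om ∧ c.Sk t c.Om = c.Om
  ut : ∀ t y, be y = 0 → Ut c.Q y * c.Sk t = c.Sk t * Ut c.Q y
  ga : ∀ t w, Ga c.Q w * c.Sk t = c.Sk t * Ga c.Q w
  sc : ∀ r s t, 0 < r → 0 < s → Usc c.Q r s * c.Sk t = c.Sk (t / s) * Usc c.Q r s
  pos : ∀ z w, Gn c.Sk z w → 0 ≤ (inner ℂ z w).re
  lip : ∀ z w t, 0 ≤ t → Gn c.Sk z w → ‖c.Sk t z - z‖ ^ 2 ≤ 2 * t * (inner ℂ z w).re
  dom : ∀ z, Dm c.SK z ↔ Dm c.Sk z ∧ Dm c.S0 z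
  split : ∀ z, Dm c.SK z → gen c.SK z = gen c.Sk z + gen c.S0 z ∧ ‖gen c.Sk z‖ ≤ ‖gen c.SK z‖
  two : ∀ z, Dm c.SK z → Dm c.SK (gen c.SK z) → Dm c.Sk (gen c.Sk z) ∧
    ‖gen c.Sk (gen c.Sk z)‖ ≤ ‖gen c.SK (gen c.SK z)‖
  k0 : ∀ ψ ψ', (∀ i, Dm (Mi c.Q i) ψ ∧ Dm (Mi c.Q i) (gen (Mi c.Q i) ψ)) →
    inner ℂ c.Om ψ' = 0 → Gn (Pa c.Q) ψ' (∑ i, gen (Mi c.Q i) (gen (Mi c.Q i) ψ)) →
    Gn c.S0 ψ ψ'

/-- level 2 -/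
structure T2Z : Prop extends T1Z c where
  zc : ZCZ c
  two : TWOZ c
  ell : ELLZ c
  kd : KDZ c
  good : GOODZ c
  f2 : F2Z c
  pw : PWZ c
  mir : MIRZ c
  kt : KTZ c
  wk : WKZ c

/-! ## level 3 -/

/-- row A2: `K φ` is in the form domain of `P_b` -/
structure A2Z : Prop where
  abs : ∀ r, 0 < r → ∃ C : ℝ, ∀ φ φ', Pr (c.N (Rc r 0)) c.Om φ φ' → Dm (Pb c.Q) φ →
    Dm (Pb c.Q) φ' → Dm (Bo c.Q) φ → Dm (Bo c.Q) φ' → Dm (Pb c.Q) (gen (Bo c.Q) φ) →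
    Dm (Bo c.Q) (gen (Bo c.Q) φ) → c.qb (gen c.SK φ) ≤ ENNReal.ofReal (C * (‖φ‖ + ‖φ'‖ +
      ‖gen (Pb c.Q) φ‖ + ‖gen (Pb c.Q) φ'‖ + ‖gen (Bo c.Q) φ‖ + ‖gen (Bo c.Q) φ'‖ +
      ‖gen (Pb c.Q) (gen (Bo c.Q) φ)‖ + ‖gen (Bo c.Q) (gen (Bo c.Q) φ)‖) ^ 2)
  slab : ∀ b1 b2 : ℝ, b2 < 0 → ∃ (m : ℕ) (C : ℝ), ∀ h k (f : Sch),
    tsupport f ⊆ {z | b1 ≤ be z ∧ be z ≤ b2} →
      c.qb (gen c.SK (c.Tv (hk h k (ev f)))) ≤ ENNReal.ofReal ((C * ‖h‖ * ‖k‖ * sn m f) ^ 2)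

/-- row POLY: the overlaps of `T` with covariant multiplets are polynomials -/
def POLYZ : Prop := ∀ (N : ℕ) (d : ℤ) (O : (Fin N → Ix) → Sch →L[ℂ] Completion D),
  CovM c.Q N d O → Even (d - N) → ∃ π : Ix → Ix → (Fin N → Ix) → MvPolynomial Ix ℂ,
  (∀ r s μ (f' f : Sch), inner ℂ ((c.T r s (ev f') c.Q.vac : D) : Completion D) (O μ f) =
    ∫ p in Fc, evp (π r s μ) p * (conj (ft (ev f') p) * ft (ev f) p)) ∧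
  (∀ r s μ, (π r s μ).IsHomogeneous d.toNat ∧ (d < 0 → π r s μ = 0)) ∧
  (∀ r s μ, π r s μ = π s r μ) ∧
  (∀ s μ, ∑ r, MvPolynomial.C (eta r : ℂ) * MvPolynomial.X r * π r s μ = 0) ∧
  (∀ r s k μ, mup ∣ π r s μ * MvPolynomial.X k - π k s μ * MvPolynomial.X r) ∧
  ∀ r s μ L p, IsLor L → evp (π r s μ) (sim 1 L 0 p) = ∑ k, ∑ l, ∑ ν : Fin N → Ix,
    ((L k r * L l s * ∏ i, L (ν i) (μ i) : ℝ) : ℂ) * evp (π k l ν) p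

/-- all tools -/
structure T3Z : Prop extends T2Z c where
  a2 : A2Z c
  poly : POLYZ c

/-! ## block B -/

/-- row BB: `K` is the second moment of the null energy, between bounded operators -/
def BBZ : Prop := ∀ (u0 d0 : ℝ) y1 r1 y2 r2 X X' (χ : ℝ → ℝ) κ ρ (y : R2), 0 < d0 → 0 < r1 →
  0 < r2 → dc y1 r1 ⊆ {z | be z < -u0 ∧ d0 < al z} → dc y2 r2 ⊆ {z | be z < -u0 ∧ d0 < al z} →
  X ∈ c.N (dc y1 r1) → c.Good X → X' ∈ c.N (dc y2 r2) → c.Good X' → Ev X → Ev X' →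
  ContDiff ℝ ∞ χ →
  (∀ t, t ≤ -d0 / 2 → χ t = 0) → (∀ t, d0 / 2 ≤ t → χ t = 1) → Cut κ → Tst ρ →
  tsupport ρ ⊆ Set.Ioo (-u0) u0 →
  Tendsto (fun L => c.om2 (jconj c.J X' (X c.Om)) (star X (star (jconj c.J X') c.Om)) χ
      (hk va va (pr (fun q => d2 (q.2 - y) (q.2 - y) * kL κ L q) ρ))) atTop
    (𝓝 (∫ u, (ρ u : ℂ) * inner ℂ (star (jconj c.J X') c.Om)
      (gen (c.Ky (tv y + u • vb)) (X c.Om))))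

/-! ## block RES -/

/-- row RES: the residue on the source `η ⊗ a a ⊗ η Φ0` vanishes -/
def RESZ : Prop := ∀ (ρ1 κ2 κ3 : P3 → ℝ) (ρ2 θ1 θ3 : ℝ → ℝ) (G : S3), Tst ρ1 → Tst κ2 → Tst κ3 →
  Tst ρ2 → Tst θ1 → Tst θ3 → (∀ y ∈ tsupport ρ1, (∀ᶠ x in 𝓝 y, κ2 x = 1) ∧ ∀ᶠ x in 𝓝 y, κ3 x = 1) →
  (∀ t ∈ tsupport ρ2, (∀ᶠ x in 𝓝 t, θ1 x = 1) ∧ ∀ᶠ x in 𝓝 t, θ3 x = 1) →
  (∀ z1 z2 z3, G (z1, z2, z3) = ((Ph0 z1 z2 z3 * ρ1 (pl z1) * ρ2 (be z2) *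
    (2 * (be z1 - be z2) * deriv θ1 (be z1) * θ3 (be z3) * κ2 (pl z2) * κ3 (pl z3) +
      2 * (be z3 - be z2) * θ1 (be z1) * deriv θ3 (be z3) * κ2 (pl z2) * κ3 (pl z3) +
      θ1 (be z1) * θ3 (be z3) * dx κ2 (pl z2) (tx z2 - tx z1) * κ3 (pl z3) +
      θ1 (be z1) * θ3 (be z3) * κ2 (pl z2) * dx κ3 (pl z3) (tx z3 - tx z1)) : ℝ) : ℂ)) →
  c.t0 G = 0

/-! ## block EV -/

/-- row FAR: far parts of the plane, and both legs on one side -/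
structure FARZ : Prop where
  far : ∀ (κ : P3 → ℝ) (ρ : ℝ → ℝ) (Ψ : V × V → ℂ), Tst κ → (0 : P3) ∉ tsupport κ → Tst ρ → Dc Ψ →
    Tendsto (fun L : ℝ => (L : ℂ) * c.t0 (sch fun z : V × V × V =>
      Ψ (z.1, z.2.2) * pr (kL κ L) ρ z.2.1)) atTop (𝓝 0)
  side : ∀ (u0 : ℝ) (κ : P3 → ℝ) (ρ : ℝ → ℝ) (Ψ : V × V → ℂ), Tst κ → Tst ρ → Dc Ψ →
    tsupport ρ ⊆ Set.Ioo (-u0) u0 →
    (tsupport Ψ ⊆ {z | be z.1 < -u0 ∧ be z.2 < -u0} ∨ tsupport Ψ ⊆ {z | u0 < be z.1 ∧ u0 < be z.2}) →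
    Tendsto (fun L : ℝ => (L : ℂ) * c.t0 (sch fun z : V × V × V =>
      Ψ (z.1, z.2.2) * pr (kL κ L) ρ z.2.1)) atTop (𝓝 0)

/-- row IX: the transverse boundary of the third leg -/
def IXZ : Prop := ∃ N : ℕ, ∀ (ρ1 κ : P3 → ℝ) (k θ ρ : ℝ → ℝ) (k' : R2 → ℝ), Tst ρ1 → Cut κ →
  Tst k → Tst θ → Tst ρ → Tst k' → (∀ j ≤ N, ∫ t, t ^ j * k t = 0) →
  (∀ y ∈ tsupport ρ1, ∀ᶠ x in 𝓝 y.2, k' x = 1) → tsupport ρ ⊆ Set.Icc (-1) 1 →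
  ∀ η > 0, ∀ᶠ ε in 𝓝[>] (0 : ℝ), ∀ δ ∈ Set.Ioc 0 ε, ∀ᶠ L in atTop,
    ‖c.t0 (sch fun z : V × V × V => ((Ph0 z.1 z.2.1 z.2.2 * ρ1 (pl z.1) * dlt δ ρ (be z.2.1) *
      (dil ε θ (be z.1) * dil ε θ (be z.2.2) * kL κ L (pl z.2.1) *
        dx (k3 k k') (pl z.2.2) (tx z.2.2 - tx z.1)) : ℝ) : ℂ))‖ ≤ η

/-- row CONM: the first moments -/
def CONMZ : Prop := ∀ w (κ f : P3 → ℝ) (ρ θ1 θ : ℝ → ℝ) (f3 : Fn) (i : Fin 2),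
  TP2 c.Q c.T false w → Cut κ → Tst f → Tst ρ → tsupport ρ ⊆ Set.Icc (-1 / 2) (1 / 2) → Tst θ1 →
  Bump θ → In {z | be z < 0} f3 → ∀ η > 0, ∀ᶠ δ in 𝓝[>] (0 : ℝ), ∀ᶠ L in atTop,
    ‖inner ℂ (w0 w (pairF (fun x => x i) κ f ρ θ1 δ L)) (c.Th f3) - (∫ t, ρ t : ℝ) *
      (inner ℂ (c.Th (pr f (abv θ1 θ δ))) (gen (Mi c.Q i) (c.Th f3)) -
        inner ℂ (c.Th (pr (fun y => y.2 i * f y) (abv θ1 θ δ))) (gen (Pa c.Q) (c.Th f3)))‖ ≤ η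

/-- the form of `K - 2 x.M + |x|^2 P` -/
def CtxZ.AbK (f : P3 → ℝ) (φ : ℝ → ℝ) (ψ : Completion D) : ℂ :=
  inner ℂ (c.Th (pr f φ)) (gen c.SK ψ) -
    2 * ∑ i, inner ℂ (c.Th (pr (fun y => y.2 i * f y) φ)) (gen (Mi c.Q i) ψ) +
    inner ℂ (c.Th (pr (fun y => d2 y.2 y.2 * f y) φ)) (gen (Pa c.Q) ψ)

/-- row CONK: the second moment -/
def CONKZ : Prop := ∀ w (κ f : P3 → ℝ) (ρ θ1 θ : ℝ → ℝ) (f3 : Fn),
  TP2 c.Q c.T false w → Cut κ → Tst f → Tst ρ → tsupport ρ ⊆ Set.Icc (-1 / 2) (1 / 2) → Tst θ1 →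
  Bump θ → In {z | be z < 0} f3 → ∀ η > 0, ∀ᶠ δ in 𝓝[>] (0 : ℝ), ∀ᶠ L in atTop,
    ‖inner ℂ (w0 w (pairF (fun x => d2 x x) κ f ρ θ1 δ L)) (c.Th f3) -
      (∫ t, ρ t : ℝ) * c.AbK f (abv θ1 θ δ) (c.Th f3)‖ ≤ η

/-- row CONT: the faces -/
structure CONTZ : Prop where
  lo : ∀ (κ f g : P3 → ℝ) (ρ θ1 θ φ : ℝ → ℝ), Cut κ → Tst f → Tst g → Tst ρ →
    tsupport ρ ⊆ Set.Icc (-1 / 2) (1 / 2) → Tst θ1 → Bump θ → Tst φ → tsupport φ ⊆ Set.Iio 0 →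
    (∀ η > 0, ∀ᶠ δ in 𝓝[>] (0 : ℝ), ∀ᶠ L in atTop, ‖c.t0 (triF κ f g ρ θ1 φ δ L) -
      (∫ t, ρ t : ℝ) * c.PF (pr f (abv θ1 θ δ)) (pr g φ)‖ ≤ η) ∧
    Tendsto (fun δ : ℝ => (δ : ℂ) * c.PF (pr f (abv θ1 θ δ)) (pr g φ)) (𝓝[>] 0) (𝓝 0)
  hi : ∀ (κ f g : P3 → ℝ) (ρ θ1 θ φ : ℝ → ℝ), Cut κ → Tst f → Tst g → Tst ρ →
    tsupport ρ ⊆ Set.Icc (-1 / 2) (1 / 2) → Tst θ1 → Bump θ → Tst φ → tsupport φ ⊆ Set.Ioi 0 →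
    (∀ η > 0, ∀ᶠ δ in 𝓝[>] (0 : ℝ), ∀ᶠ L in atTop, ‖c.t0 (triF κ f g ρ θ1 φ δ L) -
      (∫ t, ρ t : ℝ) * c.PF (pr g φ) (pr f (blw θ1 θ δ))‖ ≤ η) ∧
    Tendsto (fun δ : ℝ => (δ : ℂ) * c.PF (pr g φ) (pr f (blw θ1 θ δ))) (𝓝[>] 0) (𝓝 0)

/-- row SCH -/
def SCHZ : Prop := ∀ ell c0, EllZ c ell c0 → ∃ cc dd, SchurZ c ell cc dd

/-- row IB: the limit of the four faces -/
def IBZ : Prop := ∀ ell c0 cc dd, EllZ c ell c0 → SchurZ c ell cc dd →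
  ∀ (ρ1 : P3 → ℝ) (k θ : ℝ → ℝ) (k' : R2 → ℝ), Tst ρ1 → (∀ y : P3, ρ1 (-y.1, y.2) = ρ1 y) →
  Tst k → (∀ t, k (-t) = k t) → (∀ j ≤ 2, ∫ t, t ^ j * k t = 0) → Tst k' → Bump θ →
  (∀ y ∈ tsupport ρ1, k y.1 = 1 ∧ k' y.2 = 1) → ∫ y, ρ1 y ≠ 0 →
  ∃ G : ℂ, G ≠ 0 ∧ ∀ η > 0, ∀ᶠ ε in 𝓝[>] (0 : ℝ), ∀ᶠ δ in 𝓝[>] (0 : ℝ),
    ‖c.Faces ρ1 (k3 k k') θ ε δ - G * YY cc (chp θ) (chm θ)‖ ≤ η

/-- row SW: both legs below the plane -/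
def SWZ : Prop := ∀ ell c0 cc dd, EllZ c ell c0 → SchurZ c ell cc dd → ∀ θ, Bump θ →
  YY cc (chp θ) (chm θ) + YY cc (chm θ) (chm θ) = 0

/-- row YZ: the logarithmic coefficient vanishes -/
def YZZ : Prop := ∀ ell c0 cc dd, EllZ c ell c0 → SchurZ c ell cc dd → ∀ θ, Bump θ →
  YY cc (chm θ) (chm θ) = 0

/-! ## block GEO -/

/-- row D1: the trace of the defect on the null plane vanishes -/
def D1Z : Prop := ∃ (Φ : ℕ → ℝ → ℝ) (C : ℝ), (∀ n, Tst (Φ n) ∧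
    tsupport (Φ n) ⊆ Set.Ioo (-(1 / ((n : ℝ) + 1))) 0 ∧ ∫ t, Φ n t = 1 ∧ ∫ t, |Φ n t| ≤ C) ∧
  Tendsto (fun n => ∫ t, (t * Φ n t) ^ 2) atTop (𝓝 0) ∧
  ∀ r, 0 ≤ r → ∀ Z ∈ (c.N (Rc r 0)).commutant, ∀ g : P3 → ℂ, Dc g →
    tsupport g ⊆ {y | r * d2 y.2 y.2 < y.1} →
    Tendsto (fun n => c.bb Z (dv va (pf g (cx (Φ n))))) atTop (𝓝 0)

/-- row DD: the potential is local in forward cut cones -/
def DDZ : Prop := ∀ a b r y f, IsNull a → IsNull b → mdot a b = 1 → 0 < r →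
  In {z | z - y ∈ HM.Rg a b r} f →
  Pr (c.N {z | z - y ∈ HM.Rg a b r}) c.Om (c.l f) (c.l (bar f))

/-- row EE: `K(u) - 2 u^2 P_b` is affine -/
def EEZ : Prop := ∀ (lo hi : ℝ) ψ, (∀ u ∈ Set.Ioo lo hi, Dm (c.Ky (u • vb)) ψ) → Dm (Pb c.Q) ψ →
  ∃ k0 k1, ∀ u ∈ Set.Ioo lo hi,
    gen (c.Ky (u • vb)) ψ = k0 + (u : ℂ) • k1 + ((2 * u ^ 2 : ℝ) : ℂ) • gen (Pb c.Q) ψ

/-- row EE0: the same on even vectors -/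
def EE0Z : Prop := ∀ (lo hi : ℝ) ψ, Gm D ψ = ψ → (∀ u ∈ Set.Ioo lo hi, Dm (c.Ky (u • vb)) ψ) →
  Dm (Pb c.Q) ψ → ∃ k0 k1, ∀ u ∈ Set.Ioo lo hi,
    gen (c.Ky (u • vb)) ψ = k0 + (u : ℂ) • k1 + ((2 * u ^ 2 : ℝ) : ℂ) • gen (Pb c.Q) ψ

/-- row G1: `K` acts geometrically on the potential -/
structure G1Z : Prop where
  pot : ∀ f, In {z | be z < 0} f → Gn c.SK (c.l f) (-I • c.l (Kc 2 f))
  th : ∀ g, In {z | be z < 0} g →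
    Gn c.SK (c.Th g) (-I • (c.Th (Kc 4 g) - (12 : ℂ) • c.l (dv va g)))

end

end Vale.Agent.P352X
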