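import Vale.Agent.P352X.Api1C
import Vale.Agent.P352Z.P352X.Spec
import Vale.Agent.P352G2.Kit

open Vale.Agent.P352G

/-!
# P352X, row API1: the one parameter groups of the context
-/

set_option linter.all false

open MeasureTheory Filter Topology
open scoped ComplexConjugate

namespace Vale.Agent.P352X

open Vale.Agent.P352 Vale.Agent.P352.GF Vale.Agent.P352.BW Vale.Agent.P352.H496
open Vale.Agent.P352.H15 Vale.Agent.P352.H246 Vale.Agent.P352.H755
open Vale.Agent.P132 (ModData jconj)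
open UniformSpace (Completion)
open Complex (I)

noncomputable section

variable {D : Type*} [NormedAddCommGroup D] [InnerProductSpace ℂ D] [GrD D] {c : CtxZ D}
  {ψ ψ' k : Completion D} {O O' : Set V}

lemma CtxZ.ugS (c : CtxZ D) {a : V} (ha : IsNull a) : UG (c.S a) :=
  ⟨fun v => by rw [c.hS.zero a ha]; rfl, fun s t v => by rw [c.hS.add a s t ha]; rfl,
    fun t v w => c.hS.inn a t v w ha, fun v => c.hS.cont a v ha⟩

lemma CtxZ.ugK (c : CtxZ D) : UG c.SK := c.ugS null_va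

lemma CtxZ.K_vac (c : CtxZ D) (t : ℝ) : c.SK t c.Om = c.Om := c.hS.vac va t null_va

lemma CtxZ.norm_Om (c : CtxZ D) : ‖c.Om‖ = 1 := c.E.norm_xi

lemma CtxZ.J_J (c : CtxZ D) (z : Completion D) : c.J (c.J z) = z := c.E.J_J z

lemma CtxZ.J_Om (c : CtxZ D) : c.J c.Om = c.Om := c.E.J_xi

lemma CtxZ.N_mono (c : CtxZ D) (h : O ⊆ O') : ∀ X ∈ c.N O, X ∈ c.N O' := c.hN.mono O O' h

lemma Pr.sub_regZ (h : Pr (c.N O) c.Om ψ ψ') (e : O ⊆ O') : Pr (c.N O') c.Om ψ ψ' :=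
  h.mono (c.N_mono e)

lemma KTZ.ug0 (h : KTZ c) : UG c.S0 := .of h.zero.1 h.add0 (fun t => (h.uni t).1) fun z => (h.cont z).1

lemma KTZ.ugk (h : KTZ c) : UG c.Sk := .of h.zero.2 h.add (fun t => (h.uni t).2) fun z => (h.cont z).2

namespace GRPZ

variable (g : GRPZ c)
include g

/-! ### unitarity, continuity -/

lemma ug_inner (s L a) (v w : Completion D) :
    inner ℂ (Ug c.Q s L a v) (Ug c.Q s L a w) = inner ℂ v w := inner_unitary (g.uni s L a) v w

lemma ug_norm (s L a) (v : Completion D) : ‖Ug c.Q s L a v‖ = ‖v‖ :=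
  ContinuousLinearMap.norm_map_of_mem_unitary (g.uni s L a) v

lemma ug_opn (s L a) : ‖Ug c.Q s L a‖ ≤ 1 :=
  ContinuousLinearMap.opNorm_le_bound _ zero_le_one fun v => by rw [g.ug_norm, one_mul]

lemma ug_cont {X : Type} [TopologicalSpace X] {s : X → ℝ} {L : X → Ix → V} {a : X → V}
    {v : X → Completion D} {b : V} (hb : IsNull b) (hA : ∀ x, AN b (L x))
    (h : ∀ x, 0 < s x ∧ IsLor (L x)) (hs : Continuous s) (hL : Continuous L)
    (ha : Continuous a) (hv : Continuous v) : Continuous fun x => Ug c.Q (s x) (L x) (a x) (v x) :=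
  continuous_iff_continuousAt.2 fun x => tendsto_apply (.of_forall fun _ => g.ug_opn _ _ _)
    hv.continuousAt (g.cont X (𝓝 x) s L a _ _ _ _ (.inr (.inr ⟨b, hb, hA x, hA⟩)) h (h x).1 (h x).2
      hs.continuousAt hL.continuousAt ha.continuousAt)

lemma g0 : G0 D := ⟨g.g2, g.gs⟩

lemma ut_cont {X : Type} [TopologicalSpace X] {a : X → V} {v : X → Completion D}
    (ha : Continuous a) (hv : Continuous v) : Continuous fun x => Ut c.Q (a x) (v x) :=
  g.ug_cont null_va (fun _ => AN.one _) (fun _ => ⟨one_pos, H496.isLor_one⟩) continuous_const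
    continuous_const ha hv

lemma ga_cont {X : Type} [TopologicalSpace X] {w : X → R2} {v : X → Completion D}
    (hw : Continuous w) (hv : Continuous v) : Continuous fun x => Ga c.Q (w x) (v x) :=
  g.ug_cont null_va (fun _ => AN.nrt _ _) (fun _ => ⟨one_pos, (g.lga _).1⟩) continuous_const
    (by unfold H746.nrt; fun_prop) continuous_const hv

lemma gb_cont {X : Type} [TopologicalSpace X] {s : X → ℝ} {v : X → Completion D}
    (hs : Continuous s) (hv : Continuous v) : Continuous fun x => Gb c.Q (s x) (v x) :=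
  g.ug_cont g.nb (fun _ => AN.nrt _ _) (fun _ => ⟨one_pos, (g.lgb _).1⟩) continuous_const
    (by unfold H746.nrt; fun_prop) continuous_const hv

lemma sc_cont {X : Type} [TopologicalSpace X] {r s : X → ℝ} {v : X → Completion D}
    (h : ∀ x, 0 < r x ∧ 0 < s x) (hr : Continuous r) (hs : Continuous s) (hv : Continuous v) :
    Continuous fun x => Usc c.Q (r x) (s x) (v x) := by
  have h1 : Continuous fun x => r x / s x := hr.div hs fun x => (h x).2.ne'
  have h2 : Continuous fun x => s x / r x := hs.div hr fun x => (h x).1.ne'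
  exact g.ug_cont null_va (fun _ => AN.bst_a _ _ _ _)
    (fun x => ⟨Real.sqrt_pos.2 (mul_pos (h x).1 (h x).2),
    (g.lsc _ _ (h x).1 (h x).2).1⟩) (by fun_prop) 
      (continuous_pi fun m => (continuous_const.add (((h1.sqrt.sub continuous_const).mul
        continuous_const).smul continuous_const)).add (((h2.sqrt.sub continuous_const).mul
        continuous_const).smul continuous_const)) continuous_const hv

lemma ut_comm (x y : V) : Ut c.Q x * Ut c.Q y = Ut c.Q y * Ut c.Q x := by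
  rw [← g.ut, ← g.ut, add_comm]

lemma ut_apply (x y : V) (v : Completion D) : Ut c.Q x (Ut c.Q y v) = Ut c.Q (x + y) v := by
  rw [g.ut]
  rfl

lemma urT : SN.URep fun y z => Ut c.Q y z :=
  ⟨fun v => by rw [g.ut0]; rfl, fun x y v => (g.ut_apply x y v).symm, fun y => g.ug_inner _ _ _,
    fun v => g.ut_cont continuous_id continuous_const⟩

lemma urG : SN.URep fun w z => Ga c.Q w z :=
  ⟨fun v => by rw [g.ga0]; rfl, fun x y v => by rw [g.ga]; rfl, fun y => g.ug_inner _ _ _,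
    fun v => g.ga_cont continuous_id continuous_const⟩

lemma ugT (y : V) : UG fun t => Ut c.Q (t • y) :=
  g.urT.comp (A := fun t : ℝ => t • y) (fun s t => add_smul s t y) (by fun_prop)

lemma ugPa : UG (Pa c.Q) := g.ugT va

lemma ugPb : UG (Pb c.Q) := g.ugT vb

lemma ugG (w : R2) : UG fun t => Ga c.Q (t • w) :=
  g.urG.comp (A := fun t : ℝ => t • w) (fun s t => add_smul s t w) (by fun_prop)

lemma ugM (i : Fin 2) : UG (Mi c.Q i) := g.ugG (e2 i)

lemma ugGb : UG (Gb c.Q) :=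
  .of g.gb0 g.gb (fun _ => g.uni _ _ _) fun _ => g.gb_cont continuous_id continuous_const

/-- the scalings `U(sc(e^{x t}, e^{y t}))` -/
lemma ugSc (x y : ℝ) : UG fun t => Usc c.Q (Real.exp (x * t)) (Real.exp (y * t)) :=
  .of (by simpa using g.sc1) (fun s t => by
    simpa only [mul_add, Real.exp_add] using g.sc _ _ _ _ (Real.exp_pos _) (Real.exp_pos _)
      (Real.exp_pos _) (Real.exp_pos _)) (fun _ => g.uni _ _ _)
    fun _ => g.sc_cont (fun _ => ⟨Real.exp_pos _, Real.exp_pos _⟩) (by fun_prop) (by fun_prop)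
      continuous_const

lemma ugB : UG (Bo c.Q) := by
  have := g.ugSc 1 (-1)
  simp only [one_mul, neg_mul] at this
  exact this

lemma star_ut (y : V) : star (Ut c.Q y) = Ut c.Q (-y) := by
  simpa only [one_smul, neg_smul] using (g.ugT y).star_eq 1

lemma ut_inv (y : V) : Ut c.Q y * Ut c.Q (-y) = 1 := by rw [← g.ut, add_neg_cancel, g.ut0]

lemma ut_inv' (y : V) : Ut c.Q (-y) * Ut c.Q y = 1 := by rw [← g.ut, neg_add_cancel, g.ut0]

lemma sc_inv {r s : ℝ} (hr : 0 < r) (hs : 0 < s) : Usc c.Q r s * Usc c.Q r⁻¹ s⁻¹ = 1 := by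
  rw [← g.sc _ _ _ _ hr hs (inv_pos.2 hr) (inv_pos.2 hs), mul_inv_cancel₀ hr.ne',
    mul_inv_cancel₀ hs.ne', g.sc1]

lemma star_sc {r s : ℝ} (hr : 0 < r) (hs : 0 < s) : star (Usc c.Q r s) = Usc c.Q r⁻¹ s⁻¹ := by
  rw [← mul_one (star _), ← g.sc_inv hr hs, ← mul_assoc,
    show star (Usc c.Q r s) * Usc c.Q r s = 1 from (Unitary.mem_iff.1 (g.uni _ _ _)).1, one_mul]

lemma ugKy (y : V) : UG (c.Ky y) := by
  have := c.ugK.cj (A := Ut c.Q y) (g.uni 1 GF.one y)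
  rw [g.star_ut] at this
  exact this

lemma gn_Ky (y : V) : Gn (c.Ky y) ψ k ↔ Gn c.SK (Ut c.Q (-y) ψ) (Ut c.Q (-y) k) := by
  have e : ∀ v, Ut c.Q y (Ut c.Q (-y) v) = v := fun v => DFunLike.congr_fun (g.ut_inv y) v
  have e' : ∀ v, Ut c.Q (-y) (Ut c.Q y v) = v := fun v => DFunLike.congr_fun (g.ut_inv' y) v
  exact ⟨fun h => h.map _ fun t => (e' _).symm, fun h =>
    (h.map (W' := c.Ky y) (Ut c.Q y) fun t => by rw [e]; rfl).cast (e _).symm (e _).symm⟩

lemma dm_Ky (y : V) : Dm (c.Ky y) ψ ↔ Dm c.SK (Ut c.Q (-y) ψ) :=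
  ⟨fun h => ((g.gn_Ky y).1 h.gn).dm, fun h => ((g.gn_Ky y).2 (h.gn.cast rfl
    (DFunLike.congr_fun (g.ut_inv' y) _ : Ut c.Q (-y) (Ut c.Q y _) = _))).dm⟩

lemma gen_Ky (y : V) (h : Dm c.SK (Ut c.Q (-y) ψ)) :
    gen (c.Ky y) ψ = Ut c.Q y (gen c.SK (Ut c.Q (-y) ψ)) :=
  ((g.gn_Ky y).2 (h.gn.cast rfl
    (DFunLike.congr_fun (g.ut_inv' y) _ : Ut c.Q (-y) (Ut c.Q y _) = _))).gen_eq

/-! ### relations with the boosts, in the form of `UG.scal_gn` -/

lemma bo_ut (s : ℝ) (y : V) :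
    Bo c.Q s * Ut c.Q y = Ut c.Q (scp (Real.exp s) (Real.exp (-s)) y) * Bo c.Q s :=
  g.sc_ut _ _ _ (Real.exp_pos _) (Real.exp_pos _)

lemma bo_pb (s t : ℝ) : Bo c.Q s * Pb c.Q t = Pb c.Q (Real.exp (-1 * s) * t) * Bo c.Q s := by
  rw [Pb, g.bo_ut, Pb]
  congr 2
  exact null_ext (by simp) (by simp) (by simp)

lemma bo_tv (s : ℝ) (x : R2) : Bo c.Q s * Ut c.Q (tv x) = Ut c.Q (tv x) * Bo c.Q s := by
  rw [g.bo_ut]
  congr 2
  exact null_ext (by simp) (by simp) (by rw [tx_scp, sqrt_exp_neg, one_smul])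

lemma ga_pa (w : R2) (t : ℝ) : Ga c.Q w * Pa c.Q t = Pa c.Q t * Ga c.Q w := by
  rw [Pa, g.ga_ut]
  congr 2
  exact null_ext (by simp) (by simp) (by simp)

/-! ### pairs -/

lemma pr_ug (h : Pr (c.N O) c.Om ψ ψ') {s L} (a : V) (hs : 0 < s) (hL : IsLor L)
    (e : ∀ z ∈ O, sim s L a z ∈ O') : Pr (c.N O') c.Om (Ug c.Q s L a ψ) (Ug c.Q s L a ψ') :=
  h.cov (g.uni _ _ _) (g.vac _ _ _) fun X hX =>
    c.N_mono (Set.image_subset_iff.2 e) _ ((g.alg s L a O hs hL X).1 hX)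

lemma mem_ug {X} (h : X ∈ c.N O) {s L} (a : V) (hs : 0 < s) (hL : IsLor L)
    (e : ∀ z ∈ O, sim s L a z ∈ O') : Ug c.Q s L a * X * star (Ug c.Q s L a) ∈ c.N O' :=
  c.N_mono (Set.image_subset_iff.2 e) _ ((g.alg s L a O hs hL X).1 h)

lemma mem_ut {X} (h : X ∈ c.N O) (y : V) (e : ∀ z ∈ O, z + y ∈ O') :
    Ut c.Q y * X * Ut c.Q (-y) ∈ c.N O' :=
  g.star_ut y ▸ g.mem_ug h y one_pos H496.isLor_one (by simpa only [sim_ut] using e)

lemma pr_ut (h : Pr (c.N O) c.Om ψ ψ') (y : V) (e : ∀ z ∈ O, z + y ∈ O') :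
    Pr (c.N O') c.Om (Ut c.Q y ψ) (Ut c.Q y ψ') :=
  g.pr_ug h y one_pos H496.isLor_one (by simpa only [sim_ut] using e)

lemma pr_ga (h : Pr (c.N O) c.Om ψ ψ') (w : R2) (e : ∀ z ∈ O, gap w z ∈ O') :
    Pr (c.N O') c.Om (Ga c.Q w ψ) (Ga c.Q w ψ') :=
  g.pr_ug h 0 one_pos (g.lga w).1 (by simpa only [(g.lga w).2] using e)

lemma pr_sc (h : Pr (c.N O) c.Om ψ ψ') {r s : ℝ} (hr : 0 < r) (hs : 0 < s)
    (e : ∀ z ∈ O, scp r s z ∈ O') : Pr (c.N O') c.Om (Usc c.Q r s ψ) (Usc c.Q r s ψ') :=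
  g.pr_ug h 0 (Real.sqrt_pos.2 (mul_pos hr hs)) (g.lsc r s hr hs).1
    (by simpa only [(g.lsc r s hr hs).2] using e)

lemma pr_Tv {F : Ix → Ix → Fn} (h : ∀ m n, In O (F m n)) :
    Pr (c.N O) c.Om (c.Tv F) (c.Tv fun m n => bar (F m n)) := .of_afs (g.afft O F h) _

lemma pr_Th {f : Fn} (h : In O f) : Pr (c.N O) c.Om (c.Th f) (c.Th (bar f)) :=
  .of_afs (g.affh O f h) _

lemma pr_Al {X X' : D → D} (h : Al c.Q O X X') :
    Pr (c.N O) c.Om (X c.Q.vac : D) (X' c.Q.vac : D) := .of_afs (g.affa O X X' h) _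

end GRPZ

/-! ### wedges -/

lemma GRPZ.cyc (g : GRPZ c) {a b : V} (ha : IsNull a) (hb : IsNull b) (h : 0 < mdot a b) (y : V) :
    Dense {z | ∃ Y ∈ c.N (Wdg a b y), Y c.Om = z} :=
  g.rs _ (wdg_open a b y) (wdg_nonempty ha hb h y)

lemma JCZ.cyc' (j : JCZ c) (g : GRPZ c) {a b : V} (ha : IsNull a) (hb : IsNull b) (h : 0 < mdot a b)
    (y : V) : Dense {z | ∃ Y ∈ (c.N (Wdg a b y)).commutant, Y c.Om = z} := by
  refine (g.cyc hb ha (by rwa [md_comm]) y).mono ?_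
  rintro _ ⟨Y, hY, rfl⟩
  exact ⟨tw Y, (j.dual a b y ha hb h _).2 (by rwa [g.g0.tw_tw]), g.g0.tw_apply Y g.gv⟩

/-- the vacuum is cyclic for the commutant of the algebra of a region inside a wedge -/
lemma JCZ.cyc_sub (j : JCZ c) (g : GRPZ c) {a b y : V} (ha : IsNull a) (hb : IsNull b)
    (h : 0 < mdot a b) (e : O ⊆ Wdg a b y) :
    Dense {z | ∃ Y ∈ (c.N O).commutant, Y c.Om = z} :=
  (j.cyc' g ha hb h y).mono fun _ q => q.elim fun Y q => ⟨Y, comm_anti (c.N_mono e) Y q.1, q.2⟩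

/-- locality of even bounded operators in opposite wedges -/
lemma JCZ.loc (j : JCZ c) {a b y : V} (ha : IsNull a) (hb : IsNull b) (h : 0 < mdot a b)
    (e : O ⊆ Wdg a b y) (e' : O' ⊆ Wdg b a y) : ∀ Y ∈ c.N O', Ev Y → Y ∈ (c.N O).commutant :=
  fun Y hY hE => comm_anti (c.N_mono e) Y ((j.dualE a b y ha hb h Y hE).2 (c.N_mono e' Y hY))

/-- twisted locality of bounded operators in opposite wedges -/
lemma JCZ.loc_tw (j : JCZ c) {a b y : V} (ha : IsNull a) (hb : IsNull b) (h : 0 < mdot a b)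
    (e : O ⊆ Wdg a b y) (e' : O' ⊆ Wdg b a y) : ∀ Y ∈ c.N O', tw Y ∈ (c.N O).commutant :=
  fun Y hY => comm_anti (c.N_mono e) _ ((j.dual a b y ha hb h _).2
    (by rw [c.hN.g0.tw_tw]; exact c.N_mono e' Y hY))

/-- an even operator commutes with every operator of the opposite wedge -/
lemma JCZ.loc' (j : JCZ c) {a b y : V} (ha : IsNull a) (hb : IsNull b) (h : 0 < mdot a b)
    (e : O ⊆ Wdg a b y) (e' : O' ⊆ Wdg b a y) {X Y} (hX : X ∈ c.N O) (hY : Y ∈ c.N O')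
    (hE : Ev X ∨ Ev Y) : X * Y = Y * X :=
  hE.elim (fun hE => (VonNeumannAlgebra.mem_commutant_iff.1
    (j.loc hb ha (by rwa [md_comm]) e' e X hX hE) Y hY).symm)
    fun hE => VonNeumannAlgebra.mem_commutant_iff.1 (j.loc ha hb h e e' Y hY hE) X hX

lemma JCZ.ut (j : JCZ c) (y : V) (z : Completion D) : c.J (Ut c.Q y z) = Ut c.Q (jr y) (c.J z) := by
  have e : jL GF.one = GF.one := by
    funext m n
    by_cases h : m = n
    · simp [jL, GF.one, bas, h, sj_sq]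
    · simp [jL, GF.one, bas, Ne.symm h]
  rw [Ut, j.ug 1 _ y z one_pos H496.isLor_one (.inr (.inl rfl)), e]
  rfl

end

end Vale.Agent.P352X
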