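import Vale.Agent.P352X.Fin0
import Vale.Agent.P352Z.P352X.R.CTX

open Vale.Agent.P352G

/-!
# P352X: from the rows to conformal invariance
-/

set_option linter.all false

namespace Vale.Agent.P352X

open Vale.Agent.P352 Vale.Agent.P352.GF Vale.Agent.P352.BW Vale.Agent.P352.H246
open Vale.Agent.P352.H496 Vale.Agent.P352.H755 Vale.Agent.P352.H15
open UniformSpace (Completion)

variable {D : Type*} [NormedAddCommGroup D] [InnerProductSpace ℂ D] [GrD D]

/-- a context without time ordered products -/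
theorem ctx0Z (Q : Theory D) (T : Ix → Ix → Fld D) (hT : Q.IsStress T) (A : (V → V) → D → D)
    (hA : ND.PCh Q T A) (hG : TfGenZ Q) (N : Set V → VonNeumannAlgebra (Completion D))
    (hN : LNmZ Q A N) (hU : UVac Q) : ∃ c : CtxZ D, c.Q = Q ∧ c.T = T :=
  let ⟨c, h1, h2, _⟩ := ctx_rowZ D Q T A N 0 0 0 False hT hA hG hN hU False.elim
  ⟨c, h1, h2⟩

end Vale.Agent.P352X
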