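import Vale.Agent.P352X.R.LIE
import Vale.Agent.P352X.R.KER
import Vale.Agent.P352X.R.NULL
import Vale.Agent.P352X.R.GFF
import Vale.Agent.P352X.R.UQ
import Vale.Agent.P352X.R.SYM
import Vale.Agent.P352X.R.G2
import Vale.Agent.P352X.R.G3
import Vale.Agent.P352Z.P352X.Fin0
import Vale.Agent.P352Z.P352X.R.A2
import Vale.Agent.P352Z.P352X.R.BB.Core
import Vale.Agent.P352Z.P352X.R.BB.Cross
import Vale.Agent.P352Z.P352X.R.BB.Dec
import Vale.Agent.P352Z.P352X.R.BB.Dom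
import Vale.Agent.P352Z.P352X.R.BB.Far
import Vale.Agent.P352Z.P352X.R.BB.Fin
import Vale.Agent.P352Z.P352X.R.BB.Half
import Vale.Agent.P352Z.P352X.R.BB.KS
import Vale.Agent.P352Z.P352X.R.BB.Kt
import Vale.Agent.P352Z.P352X.R.BB.L1
import Vale.Agent.P352Z.P352X.R.BB.LIP
import Vale.Agent.P352Z.P352X.R.BB.Low
import Vale.Agent.P352Z.P352X.R.BB.MI
import Vale.Agent.P352Z.P352X.R.BB.Main
import Vale.Agent.P352Z.P352X.R.BB.Rate
import Vale.Agent.P352Z.P352X.R.BB.Tra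
import Vale.Agent.P352Z.P352X.R.BP
import Vale.Agent.P352Z.P352X.R.CH
import Vale.Agent.P352Z.P352X.R.CONK
import Vale.Agent.P352Z.P352X.R.CONM
import Vale.Agent.P352Z.P352X.R.D1
import Vale.Agent.P352Z.P352X.R.DD
import Vale.Agent.P352Z.P352X.R.EE
import Vale.Agent.P352Z.P352X.R.ELL
import Vale.Agent.P352Z.P352X.R.F2
import Vale.Agent.P352Z.P352X.R.G1
import Vale.Agent.P352Z.P352X.R.GOOD
import Vale.Agent.P352Z.P352X.R.IB
import Vale.Agent.P352Z.P352X.R.JC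
import Vale.Agent.P352Z.P352X.R.MIR
import Vale.Agent.P352Z.P352X.R.PW
import Vale.Agent.P352Z.P352X.R.RES
import Vale.Agent.P352Z.P352X.R.SW
import Vale.Agent.P352Z.P352X.R.WK
import Vale.Agent.P352Z.P352X.R.YZ

open Vale.Agent.P352G

/-!
# P352X: the composition of the rows
-/

set_option linter.all false

namespace Vale.Agent.P352X

variable {D : Type*} [NormedAddCommGroup D] [InnerProductSpace ℂ D] [GrD D]

theorem t0_thmZ (c : CtxZ D) : T0Z c :=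
  ⟨lie_row, ker_row, null_row, gff_row, uq_row, sym_row, grp_rowZ c⟩

theorem t1_thmZ (c : CtxZ D) : T1Z c :=
  have t := t0_thmZ c
  ⟨t, gen_rowZ c t, bas_rowZ c t, jc_rowZ c t, ch_rowZ c t, struct_rowZ c t⟩

theorem t2_ofZ (c : CtxZ D) (two : TWOZ c) : T2Z c :=
  have t := t1_thmZ c
  ⟨t, zc_rowZ c t, two, ell_rowZ c t, kd_rowZ c t, good_rowZ c t, f2_rowZ c t, pw_rowZ c t,
    mir_rowZ c t, kt_rowZ c t, wk_rowZ c t⟩

theorem bb_ofZ (c : CtxZ D) : T3Z c → BBZ c :=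
  BX.RowsZ.bb ⟨BX.l1_rowZ c, BX.flux_rowZ c, BX.low_rowZ c, BX.rate_rowZ c, BX.kt_rowZ c, BX.ks_rowZ c,
    BX.half_rowZ c, BX.mi_rowZ c, BX.dom_rowZ c, BX.lip_rowZ c, BX.dec_rowZ c, BX.gap_rowZ c,
    BX.far_rowZ c, BX.main_rowZ c, BX.cross_rowZ c, BX.fin_rowZ c, BX.core_rowZ c, BX.tra_rowZ c⟩

end Vale.Agent.P352X
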