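import Vale.Agent.P352Z.P352X.R.IX
import Vale.Agent.P352Z.P352X.R.POLY
import Vale.Agent.P352Z.P352X.Wire

open Vale.Agent.P352G

/-!
# P352X: all rows
-/

set_option linter.all false

namespace Vale.Agent.P352X

variable {D : Type*} [NormedAddCommGroup D] [InnerProductSpace ℂ D] [GrD D]

theorem t2_thmZ (c : CtxZ D) : T2Z c := t2_ofZ c (two_rowZ c (t1_thmZ c))

theorem t3_thmZ (c : CtxZ D) : T3Z c := ⟨t2_thmZ c, a2_rowZ c (t2_thmZ c), poly_rowZ c (t2_thmZ c)⟩

end Vale.Agent.P352X
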